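import Crest.Statements.S0222
-- import your own Crest.Agent.* helpers here
import Crest.Agent.R155.ASM
import Crest.Agent.R155.FINAL
import Crest.Agent.R155.NUM
import Crest.Agent.R155.DK
import Crest.Agent.R155.CONTR
import Crest.Agent.R155.REC
import Crest.Agent.R155.ONE
import Crest.Agent.R155.ALG
import Crest.Agent.R155.MOM
import Crest.Agent.R155.WORDS
import Crest.Agent.R155.WEYL
import Crest.Agent.R155.EM
import Crest.Agent.R155.DIM
import Crest.Agent.R155.LEVA
import Crest.Agent.R155.LEVB
import Crest.Agent.R155.LEVSYS
import Crest.Agent.R155.Pur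
import Crest.Agent.R155.Two
import Crest.Agent.R155.XA
import Crest.Agent.R155.XB
import Crest.Agent.R155.YOUNG
import Crest.Agent.R155.LINK
import Crest.Agent.R155.TR
import Crest.Agent.R155.P0
import Crest.Agent.R155.BITS
import Crest.Agent.R155.P5
import Crest.Agent.R155.P6
import Crest.Agent.R155.P6a
import Crest.Agent.R155.Sup
import Crest.Agent.R155.Eps
import Crest.Agent.R155.HOL
import Crest.Agent.R155.I
import Crest.Agent.R155.CS
import Crest.Agent.R155.COL
import Crest.Agent.R155.KAV
import Crest.Agent.R155.KT
import Crest.Agent.R155.P4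
import Crest.Agent.R155.P4A
import Crest.Agent.R155.CHAIN
import Crest.Agent.R155.P3
import Crest.Agent.R155.P3A
import Crest.Agent.R155.P3B
import Crest.Agent.R155.P3C
import Crest.Agent.R155.AL
import Crest.Agent.R155.AL1
import Crest.Agent.R155.AL2
import Crest.Agent.R155.Iso
import Crest.Agent.R155.Rel

set_option autoImplicit false
open Crest Crest.ProbabilityR

namespace Crest.Agent.S0222

open Crest.Agent.R155 in
/-- the one-pass trace bound -/
theorem trAll : StTr := by
  have hAL : StAL := al al1 al2
  have hIso : StIso := iso sep
  have hP3a : StP3a := p3a rel dep sep hIso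
  have hP3b : StP3b := p3b rel sep
  have hP3c : StP3c := p3c sep
  have hP3 : StP3 := p3 hAL hP3a hP3b hP3c dep
  have hP4a : StP4a := p4a hP3 hol
  have hP4 : StP4 := p4 hP4a chain hP3c hol dep
  have hKt : StKt := kt rel sepTop
  have hKav : StKav := kav rel
  have hI : StI := stI hKt cs col sepTop
  have hP5 : StP5 := p5 hI hP4 hKav
  have hSup : StSup := sup rel
  have hP6a : StP6a := p6a hSup rel sep
  have hP6 : StP6 := p6 hP6a epsB hol hP3c
  exact tr young hP5 hP6 rel

open Crest.Agent.R155 in
theorem finalAll : StFinal := by
  have hEM : StEM := em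
  have hPur : StPur := pur hEM
  have hTwo : StTwo := two hEM hPur
  have hDim : StDim := dim hEM
  have hLevA : StLevA := levA hEM hDim hTwo
  have hLevB : StLevB := levB hEM hTwo hDim
  have hMom : StMom := mom words
  have hOne : StOne := one alg hMom
  have hRec : StRec := recU hOne
  have hContr : StContr := contr hRec
  have hDk : StDk := dk hContr weylP hLevA
  have hNum : StNum := num hDk hLevB trAll (xa hEM) (xb hEM)
  exact final hNum

/-- Shuffle a deck of `n = 2 * 2 ^ d` cards `1600 * (d + 1)` times, that is `1600 * log₂ n` times. The total variation distance between the law of the resulting arrangement of the whole deck and the uniform law on all arrangements tends to `0` as `d → ∞`. -/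
theorem result :
    Filter.Tendsto (fun d : ℕ => Crest.ProbabilityR.Shuffle.tvFromUniform (2 ^ d) (1600 * (d + 1)))
      Filter.atTop (nhds 0) :=
  Crest.Agent.R155.main_of (Crest.Agent.R155.p0 Crest.Agent.R155.bits)
    (Crest.Agent.R155.levsys Crest.Agent.R155.em) finalAll

end Crest.Agent.S0222
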