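import Crest.Statements.S0323
import Crest.Agent.H7.T1
import Crest.Agent.H7.T2
import Crest.Agent.H7.T3
import Crest.Agent.H7.T4
import Crest.Agent.H7.T5
import Crest.Agent.H7.T6
import Crest.Agent.H7.T7a
import Crest.Agent.H7.T7b
import Crest.Agent.H7.T8
import Crest.Agent.H7.T9
import Crest.Agent.H7.T10

set_option autoImplicit false
open Crest.GeometryTopology.EditDistance
open Crest Crest.GeometryTopology Crest.GeometryTopology.EditDistance

namespace Crest.Agent.S0323

/-- There are constants `c > 0` and `d₀` such that for every `d ≥ d₀` some length `n ≤ d` has the following property: any map `f` from binary words into real `ℓ¹` that, after a common rescaling `s > 0`, satisfies `s · ed(x,y) ≤ ‖f x - f y‖ ≤ D · s · ed(x,y)` for all distinct binary words `x`, `y` of length exactly `n`, has `D ≥ exp (c √(log d · log log d))`. Here `ed` is unit-cost edit distance (insertions, deletions, substitutions, intermediate words of any length). -/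
theorem result :
    ∃ c : ℝ, 0 < c ∧ ∃ d₀ : ℕ, ∀ d : ℕ, d₀ ≤ d → ∃ n : ℕ, n ≤ d ∧
      ∀ (f : List Bool → lp (fun _ : ℕ => ℝ) 1) (s D : ℝ), 0 < s →
        (∀ x y : List Bool, x.length = n → y.length = n → x ≠ y →
          s * (editDist x y : ℝ) ≤ ‖f x - f y‖ ∧ ‖f x - f y‖ ≤ D * s * (editDist x y : ℝ)) →
        Real.exp (c * Real.sqrt (Real.log d * Real.log (Real.log d))) ≤ D := by
  obtain ⟨L₀, hL₀⟩ := H7.topGadget H7.baseCode H7.primeBound (H7.poinStep H7.edBasic H7.fourierIneq)
    (H7.sepStep (H7.farCore H7.edBasic)) (H7.selfStep (H7.farCore H7.edBasic)) H7.edBasic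
  obtain ⟨c, hc, d₀, hd₀⟩ := H7.chooseL L₀
  refine ⟨c, hc, d₀, fun d hd => ?_⟩
  obtain ⟨L, hL, hLd, hexp⟩ := hd₀ d hd
  obtain ⟨G, B, b, k, hlen, hB, hPoin, hSelf, hb, hk, hkb⟩ := hL₀ L hL
  refine ⟨B, ?_, fun f s D hs hf => ?_⟩
  · have : (B : ℝ) ≤ (d : ℝ) := hB.trans hLd
    exact_mod_cast this
  · exact (hexp.trans hkb).trans
      (H7.distBound H7.edBasic H7.negL1 G B b k hlen hPoin hSelf hb hk f s D hs hf)

end Crest.Agent.S0323
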