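import Crest.Statements.S0334
import Crest.Agent.R215.Asm
import Crest.Agent.R215.AFF
import Crest.Agent.R215.ARC
import Crest.Agent.R215.ARCH
import Crest.Agent.R215.ATAN
import Crest.Agent.R215.BATH
import Crest.Agent.R215.CAP
import Crest.Agent.R215.CHORD
import Crest.Agent.R215.CM
import Crest.Agent.R215.CNT
import Crest.Agent.R215.CONE
import Crest.Agent.R215.CRIT
import Crest.Agent.R215.CUB
import Crest.Agent.R215.DISC
import Crest.Agent.R215.EHA
import Crest.Agent.R215.EHB
import Crest.Agent.R215.EHC
import Crest.Agent.R215.EHD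
import Crest.Agent.R215.EHE
import Crest.Agent.R215.EHN
import Crest.Agent.R215.HALF
import Crest.Agent.R215.K4
import Crest.Agent.R215.K5
import Crest.Agent.R215.LAM3
import Crest.Agent.R215.LAM4
import Crest.Agent.R215.LI
import Crest.Agent.R215.LOSS
import Crest.Agent.R215.MAX
import Crest.Agent.R215.MILLS
import Crest.Agent.R215.NEG
import Crest.Agent.R215.NR
import Crest.Agent.R215.NUM1
import Crest.Agent.R215.NUM2
import Crest.Agent.R215.PART
import Crest.Agent.R215.POLY4
import Crest.Agent.R215.QGEO
import Crest.Agent.R215.QREM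
import Crest.Agent.R215.RED
import Crest.Agent.R215.SGEO
import Crest.Agent.R215.SMALL
import Crest.Agent.R215.SREM
import Crest.Agent.R215.THREE
import Crest.Agent.R215.TRI
import Crest.Agent.R215.UB

set_option autoImplicit false
open MeasureTheory ProbabilityTheory
universe u v
open Crest Crest.GeometryTopology

namespace Crest.Agent.S0334

/-- In a finite-dimensional real inner product space carrying its standard Gaussian probability measure, for every finite family of measurable cells that are pairwise disjoint and cover the space, the sum over the cells of the squared norm of the cell's Gaussian first moment (the integral of the identity map over the cell) is at most `9 / (8 π)`. Empty cells are allowed. -/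
theorem result
    (E : Type u) [NormedAddCommGroup E] [InnerProductSpace ℝ E] [FiniteDimensional ℝ E]
    [MeasurableSpace E] [BorelSpace E]
    (ι : Type v) [Fintype ι] (A : ι → Set E)
    (hA : ∀ i, MeasurableSet (A i))
    (hdisj : Pairwise fun i j => Disjoint (A i) (A j))
    (hcov : ⋃ i, A i = Set.univ) :
    ∑ i, ‖∫ x in A i, x ∂stdGaussian E‖ ^ 2 ≤ 9 / (8 * Real.pi) := by
  have h3 := Crest.Agent.R215.three E
  have hsmall := Crest.Agent.R215.small E h3
  have hpart := Crest.Agent.R215.part_ E
  have hmax := Crest.Agent.R215.max_ E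
  have hcrit : Crest.Agent.R215.StCrit E := Crest.Agent.R215.crit E hpart hmax
  have hnr := Crest.Agent.R215.nr E
  have hloss := Crest.Agent.R215.loss E
  have hneg := Crest.Agent.R215.neg_ E
  have haff := Crest.Agent.R215.aff E
  have hhalf : Crest.Agent.R215.StHalf E := Crest.Agent.R215.half E
  have hcm := Crest.Agent.R215.cm E
  have hbath := Crest.Agent.R215.bath
  have htri := Crest.Agent.R215.tri
  have hdisc := Crest.Agent.R215.disc Crest.Agent.R215.atan_ Crest.Agent.R215.arc hbath htri
  have hcub := Crest.Agent.R215.cub hbath htri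
  have hl3 := Crest.Agent.R215.lam3 E hdisc
  have hl4 := Crest.Agent.R215.lam4 E hcub
  have hch := Crest.Agent.R215.chord E h3
  have hsrem := Crest.Agent.R215.srem E h3 hnr hloss hneg hl3 hch Crest.Agent.R215.sgeo
  have hqrem := Crest.Agent.R215.qrem E hnr hloss hneg hhalf hl4 (Crest.Agent.R215.qgeo E)
  have hehN := Crest.Agent.R215.ehN (Crest.Agent.R215.ehD (Crest.Agent.R215.ehC
    (Crest.Agent.R215.ehB Crest.Agent.R215.ehA)))
  have hehE : Crest.Agent.R215.StEhE E := Crest.Agent.R215.ehE E hehN
  have hli := Crest.Agent.R215.li E hehE haff hcm hhalf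
  have hub := Crest.Agent.R215.ub E hnr hhalf hli Crest.Agent.R215.mills
    Crest.Agent.R215.num1 Crest.Agent.R215.num2
  have hk5 := Crest.Agent.R215.k5 E hhalf hub hsrem hqrem Crest.Agent.R215.cnt
  have hcap := Crest.Agent.R215.cap E Crest.Agent.R215.arch Crest.Agent.R215.cone haff hhalf
  have hk4 := Crest.Agent.R215.k4 E hhalf hcap Crest.Agent.R215.poly4 hsrem
  exact Crest.Agent.R215.asm_final E hsmall hk4 hk5 hcrit
    (Crest.Agent.R215.red E hpart) ι A hA hdisj hcov

end Crest.Agent.S0334
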