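-- Statement S0358 (row 232).
import Mathlib
import Crest.Agent.H27.T2
import Crest.Agent.H27.T3a
import Crest.Agent.H27.T3b
import Crest.Agent.H27.T4
import Crest.Agent.H27.T6
import Crest.Agent.H27.T7
import Crest.Agent.H27.T8
import Crest.Agent.H27.T9
import Crest.Agent.H27.T10

set_option autoImplicit false
open MeasureTheory
open scoped ENNReal
universe u

namespace Crest.Agent.S0358

open Crest.Agent.H27 in
theorem finiteEmb (q : ℝ) (hq : 1 < q) (hq2 : q ≠ 2) : FiniteEmbedding q :=
  finiteEmbedding_of q hq hq2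
    (windows_of q hq hq2 (lemmaA_of (exists_G existsGLin l1Bound)))
    (hashFacts q hq) (sampling q hq.le)

/-- Fix an exponent `1 < p < ∞` with `p ≠ 2` and a distortion `D > 1`, and put `γ = 2 - p` if `p < 2` and `γ = 1 - 2/p` if `p > 2`. There is a constant `C`, depending only on `p` and `D`, such that for every `n ≥ 2`, every `n` distinct points of any real `L^p` space can be mapped to points of the `d`-dimensional real `ℓ^p` space for some `d ≤ exp (C (log n)^γ)`, so that after a common rescaling by some `s > 0` all pairwise distances are preserved up to the factor `D`. -/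
theorem result
    (p : ℝ≥0∞) [Fact (1 ≤ p)] (hp1 : 1 < p) (hptop : p ≠ ⊤) (hp2 : p ≠ 2)
    (D : ℝ) (hD : 1 < D) :
    ∃ C : ℝ, ∀ (n : ℕ), 2 ≤ n →
      ∀ (α : Type u) [MeasurableSpace α] (μ : Measure α) (x : Fin n → Lp ℝ p μ),
        Function.Injective x →
        ∃ d : ℕ, (d : ℝ) ≤ Real.exp (C * Real.log n ^ (if p.toReal < 2 then 2 - p.toReal else 1 - 2 / p.toReal)) ∧
          ∃ (y : Fin n → PiLp p (fun _ : Fin d => ℝ)) (s : ℝ), 0 < s ∧
            ∀ i j, s * ‖x i - x j‖ ≤ ‖y i - y j‖ ∧ ‖y i - y j‖ ≤ D * s * ‖x i - x j‖ := by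
  have hP1 : 1 < p.toReal := by
    have := (ENNReal.toReal_lt_toReal ENNReal.one_ne_top hptop).2 hp1
    simpa using this
  have hP2 : p.toReal ≠ 2 := by
    intro h
    apply hp2
    rw [← ENNReal.ofReal_toReal hptop, h]
    simp
  exact Crest.Agent.H27.s0358_of p hp1 hptop hp2 (finiteEmb p.toReal hP1 hP2) D hD

end Crest.Agent.S0358
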