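import Crest.Statements.S0359
-- import your own Crest.Agent.* helpers here

set_option autoImplicit false
open MeasureTheory
open scoped ENNReal
open Crest Crest.GeometryTopology

namespace Crest.Agent.S0359

/-! ### scalar inequalities -/

theorem add_rpow_lt {x y q : ℝ} (hx : 0 < x) (hy : 0 < y) (hq : 1 < q) :
    x ^ q + y ^ q < (x + y) ^ q := by
  have h1 : x ^ (q - 1) < (x + y) ^ (q - 1) :=
    Real.rpow_lt_rpow hx.le (by linarith) (by linarith)
  have h2 : y ^ (q - 1) < (x + y) ^ (q - 1) :=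
    Real.rpow_lt_rpow hy.le (by linarith) (by linarith)
  have e : ∀ t : ℝ, 0 < t → t ^ q = t * t ^ (q - 1) := by
    intro t ht
    rw [Real.rpow_sub_one ht.ne']
    field_simp
  rw [e x hx, e y hy, e (x + y) (by linarith)]
  nlinarith

theorem add_rpow_gt {x y q : ℝ} (hx : 0 < x) (hy : 0 < y) (hq : q < 1) :
    (x + y) ^ q < x ^ q + y ^ q := by
  have h1 : (x + y) ^ (q - 1) < x ^ (q - 1) :=
    Real.rpow_lt_rpow_of_neg hx (by linarith) (by linarith)
  have h2 : (x + y) ^ (q - 1) < y ^ (q - 1) :=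
    Real.rpow_lt_rpow_of_neg hy (by linarith) (by linarith)
  have e : ∀ t : ℝ, 0 < t → t ^ q = t * t ^ (q - 1) := by
    intro t ht
    rw [Real.rpow_sub_one ht.ne']
    field_simp
  rw [e x hx, e y hy, e (x + y) (by linarith)]
  nlinarith

theorem abs_rpow_eq (t q : ℝ) : |t| ^ q = (t ^ 2) ^ (q / 2) := by
  rw [← sq_abs, ← Real.rpow_natCast, ← Real.rpow_mul (abs_nonneg t)]
  congr 1
  push_cast
  ring

theorem clarkson_gt {q : ℝ} (hq : 2 < q) (a b : ℝ) :
    2 * (|a| ^ q + |b| ^ q) ≤ |a + b| ^ q + |a - b| ^ q ∧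
    (a * b ≠ 0 → 2 * (|a| ^ q + |b| ^ q) < |a + b| ^ q + |a - b| ^ q) := by
  have hc := (convexOn_rpow (p := q / 2) (by linarith)).2
    (Set.mem_Ici.2 (sq_nonneg (a + b)))
    (Set.mem_Ici.2 (sq_nonneg (a - b)))
    (show (0:ℝ) ≤ 1 / 2 by norm_num) (show (0:ℝ) ≤ 1 / 2 by norm_num) (by norm_num)
  have e : (1 / 2 : ℝ) • (a + b) ^ 2 + (1 / 2 : ℝ) • (a - b) ^ 2 = a ^ 2 + b ^ 2 := by
    simp only [smul_eq_mul]; ring
  simp only [e] at hc
  simp only [smul_eq_mul] at hc
  rw [abs_rpow_eq a, abs_rpow_eq b, abs_rpow_eq (a + b), abs_rpow_eq (a - b)]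
  have key : a * b ≠ 0 → (a ^ 2) ^ (q / 2) + (b ^ 2) ^ (q / 2) < (a ^ 2 + b ^ 2) ^ (q / 2) := by
    intro hab
    have ha : a ≠ 0 := left_ne_zero_of_mul hab
    have hb : b ≠ 0 := right_ne_zero_of_mul hab
    exact add_rpow_lt (by positivity) (by positivity) (by linarith)
  refine ⟨?_, fun hab => by have := key hab; linarith⟩
  by_cases hab : a * b = 0
  · rcases mul_eq_zero.1 hab with h | h
    · rw [h]; simp [show q / 2 ≠ 0 by linarith]; linarith [Real.rpow_nonneg (sq_nonneg b) (q/2)]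
    · rw [h]; simp [show q / 2 ≠ 0 by linarith]; linarith [Real.rpow_nonneg (sq_nonneg a) (q/2)]
  · have := key hab; linarith

theorem clarkson_lt {q : ℝ} (hq0 : 0 < q) (hq : q < 2) (a b : ℝ) :
    |a + b| ^ q + |a - b| ^ q ≤ 2 * (|a| ^ q + |b| ^ q) ∧
    (a * b ≠ 0 → |a + b| ^ q + |a - b| ^ q < 2 * (|a| ^ q + |b| ^ q)) := by
  have hc := (Real.concaveOn_rpow (p := q / 2) (by linarith) (by linarith)).2
    (Set.mem_Ici.2 (sq_nonneg (a + b)))
    (Set.mem_Ici.2 (sq_nonneg (a - b)))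
    (show (0:ℝ) ≤ 1 / 2 by norm_num) (show (0:ℝ) ≤ 1 / 2 by norm_num) (by norm_num)
  have e : (1 / 2 : ℝ) • (a + b) ^ 2 + (1 / 2 : ℝ) • (a - b) ^ 2 = a ^ 2 + b ^ 2 := by
    simp only [smul_eq_mul]; ring
  simp only [e] at hc
  simp only [smul_eq_mul] at hc
  rw [abs_rpow_eq a, abs_rpow_eq b, abs_rpow_eq (a + b), abs_rpow_eq (a - b)]
  have key : a * b ≠ 0 → (a ^ 2 + b ^ 2) ^ (q / 2) < (a ^ 2) ^ (q / 2) + (b ^ 2) ^ (q / 2) := by
    intro hab
    have ha : a ≠ 0 := left_ne_zero_of_mul hab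
    have hb : b ≠ 0 := right_ne_zero_of_mul hab
    exact add_rpow_gt (by positivity) (by positivity) (by linarith)
  refine ⟨?_, fun hab => by have := key hab; linarith⟩
  by_cases hab : a * b = 0
  · rcases mul_eq_zero.1 hab with h | h
    · rw [h]; simp [show q / 2 ≠ 0 by linarith]; linarith [Real.rpow_nonneg (sq_nonneg b) (q/2)]
    · rw [h]; simp [show q / 2 ≠ 0 by linarith]; linarith [Real.rpow_nonneg (sq_nonneg a) (q/2)]
  · have := key hab; linarith

/-- equality in the parallelogram identity forces disjoint supports -/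
theorem disj {d : ℕ} {q : ℝ} (hq1 : 1 < q) (hq2 : q ≠ 2) (u v : Fin d → ℝ)
    (h : ∑ k, |u k + v k| ^ q + ∑ k, |u k - v k| ^ q = 2 * (∑ k, |u k| ^ q + ∑ k, |v k| ^ q))
    (k : Fin d) : u k * v k = 0 := by
  by_contra hk
  rw [← Finset.sum_add_distrib, ← Finset.sum_add_distrib, Finset.mul_sum] at h
  rcases lt_or_gt_of_ne hq2 with hq | hq
  · have := Finset.sum_lt_sum (s := Finset.univ) (f := fun k => |u k + v k| ^ q + |u k - v k| ^ q)
      (g := fun k => 2 * (|u k| ^ q + |v k| ^ q))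
      (fun i _ => (clarkson_lt (by linarith) hq (u i) (v i)).1)
      ⟨k, Finset.mem_univ k, (clarkson_lt (by linarith) hq (u k) (v k)).2 hk⟩
    exact this.ne h
  · have := Finset.sum_lt_sum (s := Finset.univ) (g := fun k => |u k + v k| ^ q + |u k - v k| ^ q)
      (f := fun k => 2 * (|u k| ^ q + |v k| ^ q))
      (fun i _ => (clarkson_gt hq (u i) (v i)).1)
      ⟨k, Finset.mem_univ k, (clarkson_gt hq (u k) (v k)).2 hk⟩
    exact this.ne' h

/-- midpoint convexity of `|t|^q`, strict -/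
theorem mid {q : ℝ} (hq : 1 < q) (a b : ℝ) :
    |a + b| ^ q ≤ 2 ^ q * ((|a| ^ q + |b| ^ q) / 2) ∧
    (a ≠ b → |a + b| ^ q < 2 ^ q * ((|a| ^ q + |b| ^ q) / 2)) := by
  have e1 : |a + b| ^ q = 2 ^ q * (|a + b| / 2) ^ q := by
    rw [← Real.mul_rpow (by norm_num) (by positivity)]
    congr 1; ring
  have h1 : (|a + b| / 2) ^ q ≤ ((|a| + |b|) / 2) ^ q :=
    Real.rpow_le_rpow (by positivity) (by linarith [abs_add_le a b]) (by linarith)
  have h2 : ((|a| + |b|) / 2) ^ q ≤ (|a| ^ q + |b| ^ q) / 2 := by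
    have hc := (convexOn_rpow hq.le).2
      (Set.mem_Ici.2 (abs_nonneg a)) (Set.mem_Ici.2 (abs_nonneg b))
      (show (0:ℝ) ≤ 1 / 2 by norm_num) (show (0:ℝ) ≤ 1 / 2 by norm_num) (by norm_num)
    simp only [smul_eq_mul] at hc
    have e2 : (|a| + |b|) / 2 = 1 / 2 * |a| + 1 / 2 * |b| := by ring
    rw [e2]; linarith
  have h2q : (0:ℝ) < 2 ^ q := by positivity
  refine ⟨by rw [e1]; exact mul_le_mul_of_nonneg_left (h1.trans h2) h2q.le, fun hab => ?_⟩
  rw [e1]
  apply mul_lt_mul_of_pos_left _ h2q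
  by_cases hab' : |a| = |b|
  · -- then b = -a, so the left side vanishes
    have hb : a = -b := by
      rcases abs_eq_abs.1 hab' with h | h
      · exact absurd h hab
      · exact h
    have hb0 : b ≠ 0 := by
      intro h0; apply hab; rw [hb, h0]; simp
    have : |a + b| = 0 := by rw [hb]; simp
    rw [this, zero_div, Real.zero_rpow (by linarith), hab']
    have : 0 < |b| := abs_pos.2 hb0
    positivity
  · have hc := (strictConvexOn_rpow hq).2
      (Set.mem_Ici.2 (abs_nonneg a)) (Set.mem_Ici.2 (abs_nonneg b))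
      hab' (show (0:ℝ) < 1 / 2 by norm_num) (show (0:ℝ) < 1 / 2 by norm_num) (by norm_num)
    simp only [smul_eq_mul] at hc
    have e2 : (|a| + |b|) / 2 = 1 / 2 * |a| + 1 / 2 * |b| := by ring
    rw [e2] at h1
    linarith

theorem strict {d : ℕ} {q : ℝ} (hq : 1 < q) (u v : Fin d → ℝ) (R : ℝ)
    (h1 : ∑ k, |u k| ^ q = R) (h2 : ∑ k, |v k| ^ q = R)
    (h3 : ∑ k, |u k + v k| ^ q = 2 ^ q * R) (k : Fin d) : u k = v k := by
  by_contra hk
  have := Finset.sum_lt_sum (s := Finset.univ) (f := fun k => |u k + v k| ^ q)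
      (g := fun k => 2 ^ q * ((|u k| ^ q + |v k| ^ q) / 2))
      (fun i _ => (mid hq (u i) (v i)).1) ⟨k, Finset.mem_univ k, (mid hq (u k) (v k)).2 hk⟩
  rw [h3, ← Finset.mul_sum, ← Finset.sum_div, Finset.sum_add_distrib, h1, h2] at this
  have e : (R + R) / 2 = R := by ring
  rw [e] at this
  exact lt_irrefl _ this

/-! ### norms -/

theorem norm_rpow_piLp {p : ℝ≥0∞} [Fact (1 ≤ p)] (hptop : p ≠ ⊤) {d : ℕ}
    (z : PiLp p (fun _ : Fin d => ℝ)) : ‖z‖ ^ p.toReal = ∑ k, |z k| ^ p.toReal := by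
  have hp : 0 < p.toReal := ENNReal.toReal_pos (by have := Fact.out (p := 1 ≤ p); positivity) hptop
  rw [PiLp.norm_eq_sum hp, ← Real.rpow_mul (by positivity), one_div, inv_mul_cancel₀ hp.ne',
    Real.rpow_one]
  rfl

variable {α : Type} [Fintype α] [MeasurableSpace α] [DiscreteMeasurableSpace α]

/-- the class of a function on a finite set -/
noncomputable def T (p : ℝ≥0∞) (f : α → ℝ) : Lp ℝ p (Measure.count : Measure α) :=
  MemLp.toLp f (MemLp.of_discrete : MemLp f p Measure.count)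

theorem T_sub (p : ℝ≥0∞) (f g : α → ℝ) : T p (f - g) = T p f - T p g := MemLp.toLp_sub _ _

theorem norm_rpow_T {p : ℝ≥0∞} [Fact (1 ≤ p)] (hptop : p ≠ ⊤) (f : α → ℝ) :
    ‖T p f‖ ^ p.toReal = ∑ a, |f a| ^ p.toReal := by
  have hp : 0 < p.toReal := ENNReal.toReal_pos (by have := Fact.out (p := 1 ≤ p); positivity) hptop
  have hp0 : p ≠ 0 := by have := Fact.out (p := 1 ≤ p); positivity
  unfold T
  rw [Lp.norm_toLp, eLpNorm_eq_lintegral_rpow_enorm_toReal hp0 hptop, lintegral_count,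
    tsum_fintype, ENNReal.toReal_rpow, ← ENNReal.rpow_mul, one_div, inv_mul_cancel₀ hp.ne',
    ENNReal.rpow_one, ENNReal.toReal_sum]
  · apply Finset.sum_congr rfl
    intro a _
    rw [← ENNReal.toReal_rpow]
    simp
  · intro a _
    exact ENNReal.rpow_ne_top_of_nonneg hp.le (by simp)

/-! ### main argument -/

/-- rows and columns -/
def Rw (m : ℕ) (i : Fin m) : Fin m × Fin m → ℝ := fun a => if a.1 = i then 1 else 0
def Cl (m : ℕ) (j : Fin m) : Fin m × Fin m → ℝ := fun a => if a.2 = j then 1 else 0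

theorem main_bound {q : ℝ} (hq1 : 1 < q) (hq2 : q ≠ 2) {m d : ℕ}
    (F : Set (Fin m × Fin m → ℝ)) (hF0 : 0 ∈ F) (hFn : ∀ f ∈ F, -f ∈ F)
    (hR : ∀ i, Rw m i ∈ F) (hC : ∀ j, Cl m j ∈ F)
    (Y : (Fin m × Fin m → ℝ) → Fin d → ℝ) (s : ℝ) (hs : 0 < s)
    (hY : ∀ f ∈ F, ∀ g ∈ F, ∑ k, |Y f k - Y g k| ^ q = s ^ q * ∑ a, |f a - g a| ^ q) :
    m ^ 2 ≤ d := by
  have hsq : 0 < s ^ q := by positivity
  let U : (Fin m × Fin m → ℝ) → Fin d → ℝ := fun f k => Y f k - Y 0 k
  have hUd : ∀ f g k, U f k - U g k = Y f k - Y g k := fun f g k => by simp only [U]; ring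
  have hU : ∀ f ∈ F, ∀ g ∈ F, ∑ k, |U f k - U g k| ^ q = s ^ q * ∑ a, |f a - g a| ^ q := by
    intro f hf g hg
    simp_rw [hUd]
    exact hY f hf g hg
  have hUn : ∀ f ∈ F, ∑ k, |U f k| ^ q = s ^ q * ∑ a, |f a| ^ q := by
    intro f hf
    have := hU f hf 0 hF0
    simpa [U] using this
  have hneg : ∀ f ∈ F, ∀ k, U (-f) k = - U f k := by
    intro f hf k
    have h1 := hUn f hf
    have h2 := hUn (-f) (hFn f hf)
    have h3 := hU f hf (-f) (hFn f hf)
    have := strict hq1 (U f) (fun k => - U (-f) k) (s ^ q * ∑ a, |f a| ^ q) h1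
      (by simp_rw [abs_neg]; rw [h2]; simp) (by
        simp_rw [← sub_eq_add_neg]
        rw [h3]
        have e : ∀ a, |f a - (-f) a| ^ q = 2 ^ q * |f a| ^ q := by
          intro a
          rw [← Real.mul_rpow (by norm_num) (abs_nonneg _)]
          congr 1
          rw [Pi.neg_apply, sub_neg_eq_add, ← two_mul, abs_mul]
          norm_num
        simp_rw [e, ← Finset.mul_sum]
        ring) k
    linarith
  have hadd : ∀ f ∈ F, ∀ g ∈ F, ∑ k, |U f k + U g k| ^ q = s ^ q * ∑ a, |f a + g a| ^ q := by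
    intro f hf g hg
    have := hU f hf (-g) (hFn g hg)
    simp_rw [hneg g hg, Pi.neg_apply, sub_neg_eq_add] at this
    exact this
  -- disjoint supports
  have hdisj : ∀ f ∈ F, ∀ g ∈ F, (∀ a, f a = 0 ∨ g a = 0) → ∀ k, U f k * U g k = 0 := by
    intro f hf g hg hfg k
    apply disj hq1 hq2
    rw [hadd f hf g hg, hU f hf g hg, hUn f hf, hUn g hg, ← mul_add, ← mul_add,
      ← Finset.sum_add_distrib, ← Finset.sum_add_distrib]
    have e : ∀ a, |f a + g a| ^ q + |f a - g a| ^ q = 2 * (|f a| ^ q + |g a| ^ q) := by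
      intro a
      rcases hfg a with h | h <;> rw [h] <;>
        simp [Real.zero_rpow (show q ≠ 0 by linarith)] <;> ring
    simp_rw [e, ← Finset.mul_sum]
    ring
  -- rows and columns meet
  have hmeet : ∀ i j, ∃ k, U (Rw m i) k * U (Cl m j) k ≠ 0 := by
    intro i j
    by_contra hcon
    push Not at hcon
    have h1 : ∑ k, |U (Rw m i) k - U (Cl m j) k| ^ q =
        ∑ k, |U (Rw m i) k| ^ q + ∑ k, |U (Cl m j) k| ^ q := by
      rw [← Finset.sum_add_distrib]
      apply Finset.sum_congr rfl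
      intro k _
      rcases mul_eq_zero.1 (hcon k) with h | h <;> rw [h] <;>
        simp [Real.zero_rpow (show q ≠ 0 by linarith)]
    rw [hU _ (hR i) _ (hC j), hUn _ (hR i), hUn _ (hC j), ← mul_add] at h1
    have h2 := mul_left_cancel₀ hsq.ne' h1
    have h3 : ∑ a, |Rw m i a - Cl m j a| ^ q <
        ∑ a, (|Rw m i a| ^ q + |Cl m j a| ^ q) := by
      apply Finset.sum_lt_sum
      · intro a _
        unfold Rw Cl
        split_ifs <;> simp [Real.zero_rpow (show q ≠ 0 by linarith)]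
      · refine ⟨(i, j), Finset.mem_univ _, ?_⟩
        unfold Rw Cl
        simp [Real.zero_rpow (show q ≠ 0 by linarith)]
    rw [Finset.sum_add_distrib] at h3
    exact h3.ne h2
  choose κ hκ using hmeet
  have hinj : Function.Injective (fun ij : Fin m × Fin m => κ ij.1 ij.2) := by
    rintro ⟨i, j⟩ ⟨i', j'⟩ h
    simp only at h
    have h1 := hκ i j
    have h2 := hκ i' j'
    rw [← h] at h2
    have a1 := left_ne_zero_of_mul h1
    have a2 := right_ne_zero_of_mul h1
    have b1 := left_ne_zero_of_mul h2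
    have b2 := right_ne_zero_of_mul h2
    have hi : i = i' := by
      by_contra hne
      have := hdisj (Rw m i) (hR i) (Rw m i') (hR i') (fun a => by
        unfold Rw
        by_cases h : a.1 = i
        · right
          rw [if_neg]
          intro h'
          exact hne (h.symm.trans h')
        · left; rw [if_neg h]) (κ i j)
      exact mul_ne_zero a1 b1 this
    have hj : j = j' := by
      by_contra hne
      have := hdisj (Cl m j) (hC j) (Cl m j') (hC j') (fun a => by
        unfold Cl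
        by_cases h : a.2 = j
        · right
          rw [if_neg]
          intro h'
          exact hne (h.symm.trans h')
        · left; rw [if_neg h]) (κ i j)
      exact mul_ne_zero a2 b2 this
    rw [hi, hj]
  have := Fintype.card_le_of_injective _ hinj
  simpa [sq] using this

/-- Fix an exponent 1 < p < ∞ with p ≠ 2 and n ≥ 9. If d is a dimension such that every n distinct points of any real L^p space can be mapped to the d-dimensional real ℓ^p space with all pairwise distances multiplied by one common factor s > 0 (an isometric embedding up to scaling), then ⌊(n − 1)/4⌋² ≤ d. -/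
theorem result
    (p : ℝ≥0∞) [Fact (1 ≤ p)] (hp1 : 1 < p) (hptop : p ≠ ⊤) (hp2 : p ≠ 2)
    (n : ℕ) (hn : 9 ≤ n) (d : ℕ)
    (hd : ∀ (α : Type) [MeasurableSpace α] (μ : Measure α) (x : Fin n → Lp ℝ p μ),
      Function.Injective x →
      ∃ (y : Fin n → PiLp p (fun _ : Fin d => ℝ)) (s : ℝ), 0 < s ∧
        ∀ i j, ‖y i - y j‖ = s * ‖x i - x j‖) :
    ((n - 1) / 4) ^ 2 ≤ d := by
  classical
  set m := (n - 1) / 4 with hm
  have hm2 : 2 ≤ m := by omega
  have hmn : 4 * m + 1 ≤ n := by omega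
  have hq1 : 1 < p.toReal := by
    rw [← ENNReal.toReal_one]
    exact (ENNReal.toReal_lt_toReal ENNReal.one_ne_top hptop).2 hp1
  have hq2 : p.toReal ≠ 2 := by
    intro h
    apply hp2
    rw [← ENNReal.ofReal_toReal hptop, h]
    norm_num
  have hq0 : 0 < p.toReal := by linarith
  -- the configuration
  let Fs : Finset (Fin m × Fin m → ℝ) :=
    {0} ∪ (Finset.univ.image (Rw m) ∪ Finset.univ.image (fun i => - Rw m i)) ∪
      (Finset.univ.image (Cl m) ∪ Finset.univ.image (fun i => - Cl m i))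
  have hcard : Fs.card ≤ n := by
    have h1 : ∀ f : Fin m → (Fin m × Fin m → ℝ), (Finset.univ.image f).card ≤ m := fun f =>
      Finset.card_image_le.trans (by simp)
    have a1 := Finset.card_union_le ({0} ∪ (Finset.univ.image (Rw m) ∪
      Finset.univ.image (fun i => - Rw m i))) (Finset.univ.image (Cl m) ∪
      Finset.univ.image (fun i => - Cl m i))
    have a2 := Finset.card_union_le ({0} : Finset (Fin m × Fin m → ℝ))
      (Finset.univ.image (Rw m) ∪ Finset.univ.image (fun i => - Rw m i))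
    have a3 := Finset.card_union_le (Finset.univ.image (Rw m))
      (Finset.univ.image (fun i => - Rw m i))
    have a4 := Finset.card_union_le (Finset.univ.image (Cl m))
      (Finset.univ.image (fun i => - Cl m i))
    have b1 := h1 (Rw m)
    have b2 := h1 (fun i => - Rw m i)
    have b3 := h1 (Cl m)
    have b4 := h1 (fun i => - Cl m i)
    rw [Finset.card_singleton] at a2
    refine le_trans a1 ?_
    omega
  let S : Finset (Lp ℝ p (Measure.count : Measure (Fin m × Fin m))) := Fs.image (T p)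
  have hScard : S.card ≤ n := Finset.card_image_le.trans hcard
  -- the space is infinite
  have hinf : Infinite (Lp ℝ p (Measure.count : Measure (Fin m × Fin m))) := by
    let i0 : Fin m := ⟨0, by omega⟩
    have hne : T p (Rw m i0) ≠ 0 := by
      intro h0
      have h1 := norm_rpow_T (p := p) hptop (Rw m i0)
      rw [h0, norm_zero, Real.zero_rpow hq0.ne'] at h1
      have h2 : 0 < ∑ a, |Rw m i0 a| ^ p.toReal := by
        apply Finset.sum_pos' (fun a _ => by positivity)
        refine ⟨(i0, i0), Finset.mem_univ _, ?_⟩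
        unfold Rw; simp
      linarith
    exact Infinite.of_injective (fun t : ℝ => t • T p (Rw m i0)) (smul_left_injective ℝ hne)
  obtain ⟨t, hSt, htc⟩ := Infinite.exists_superset_card_eq S n hScard
  let e : t ≃ Fin n := t.equivFinOfCardEq htc
  obtain ⟨y, s, hs, hy⟩ := hd (Fin m × Fin m) Measure.count (fun i => (e.symm i : Lp ℝ p _))
    (fun i j h => e.symm.injective (Subtype.ext h))
  let Y : (Fin m × Fin m → ℝ) → Fin d → ℝ := fun f k =>
    if h : T p f ∈ t then y (e ⟨T p f, h⟩) k else 0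
  have hmem : ∀ f ∈ Fs, T p f ∈ t := fun f hf => hSt (Finset.mem_image_of_mem _ hf)
  apply main_bound hq1 hq2 (Fs : Set (Fin m × Fin m → ℝ)) (by simp [Fs]) _ (fun i => by simp [Fs])
    (fun i => by simp [Fs]) Y s hs
  · intro f hf g hg
    have hf' := hmem f (by simpa using hf)
    have hg' := hmem g (by simpa using hg)
    have h1 := hy (e ⟨T p f, hf'⟩) (e ⟨T p g, hg'⟩)
    simp only [Equiv.symm_apply_apply] at h1
    have h2 : ‖y (e ⟨T p f, hf'⟩) - y (e ⟨T p g, hg'⟩)‖ ^ p.toReal =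
        (s * ‖T p f - T p g‖) ^ p.toReal := by rw [h1]
    rw [norm_rpow_piLp hptop, Real.mul_rpow hs.le (norm_nonneg _), ← T_sub, norm_rpow_T hptop] at h2
    have e1 : ∀ k, Y f k - Y g k = (y (e ⟨T p f, hf'⟩) - y (e ⟨T p g, hg'⟩)) k := by
      intro k
      simp only [Y, dif_pos hf', dif_pos hg']
      rfl
    simp_rw [e1]
    rw [h2]
    rfl
  · intro f hf
    simp only [Fs, Finset.coe_union, Finset.coe_singleton, Finset.coe_image, Finset.coe_univ,
      Set.image_univ, Set.mem_union, Set.mem_singleton_iff, Set.mem_range] at hf ⊢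
    rcases hf with (h | ⟨i, h⟩ | ⟨i, h⟩) | ⟨i, h⟩ | ⟨i, h⟩
    · left; left; rw [h, neg_zero]
    · left; right; right; exact ⟨i, by rw [h]⟩
    · left; right; left; exact ⟨i, by rw [← h, neg_neg]⟩
    · right; right; exact ⟨i, by rw [h]⟩
    · right; left; exact ⟨i, by rw [← h, neg_neg]⟩

end Crest.Agent.S0359
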