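import Crest.Prelude.Def_CubeNoise
import Crest.Agent.H28.Cube

namespace Crest.LogicCS
end Crest.LogicCS

set_option autoImplicit false
open Crest.CubeNoise
open Crest Crest.LogicCS

namespace Crest.Agent.S0472

open Crest.Agent.H28 in
lemma avg_signEntropy {n : ℕ} (g : (Fin n → Bool) → ℝ) (hg : ∀ x, |g x| < 1) :
    cubeAverage (fun x => signEntropy (g x)) = cubeAverage (fun x => hh (g x)) := by
  congr 1
  funext x
  have := abs_lt.1 (hg x)
  exact signEntropy_eq this.1.le this.2.le

open Crest.Agent.H28 in
lemma information_eq {n : ℕ} (g : (Fin n → Bool) → ℝ) (hg : ∀ x, |g x| < 1) :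
    information g = hh (cubeAverage g) - cubeAverage (fun x => hh (g x)) := by
  unfold information
  have := abs_lt.1 (cubeAverage_abs_lt hg)
  rw [avg_signEntropy g hg, signEntropy_eq this.1.le this.2.le]

open Crest.Agent.H28 in
lemma part1 (n : ℕ) (g : (Fin n → Bool) → ℝ)
    (hg : ∀ x, |g x| < 1) (r : ℝ) (hr0 : 0 ≤ r) (hr1 : r < 1)
    (h : Real.log 2 - signEntropy r = information g) :
    r * Real.artanh r ≤ production g := by
  rw [signEntropy_eq (by linarith) hr1.le, information_eq g hg] at h
  have hpsi : psi r = hh (cubeAverage g) - cubeAverage (fun x => hh (g x)) := by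
    rw [← h]; unfold hh; ring
  rw [th_eq_artanh (by linarith) hr1]
  rcases le_or_gt r bt with hb | hb
  · have := main1 n g hg
    rw [← hpsi, SS_psi bt_pos bt_lt_one hr0 hb] at this
    unfold Sr at this
    linarith
  · have hrpos : 0 < r := bt_pos.trans hb
    have key := main2 hrpos hr1 n g hg
    set m := cubeAverage g with hm
    set A := cubeAverage (fun x => hh (g x)) with hA
    have hm1 := cubeAverage_abs_lt hg
    rw [← hm] at hm1
    have hv := one_sub_sq_pos' hm1
    have ht := SS_ge_tangent hrpos hr1 hr0 le_rfl (Real.log 2 - A / (1 - m ^ 2))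
    have ht2 := mul_le_mul_of_nonneg_left ht hv.le
    unfold tau at key
    have e1 : (1 - m ^ 2) * (Sr r + sr r * (Real.log 2 - A / (1 - m ^ 2) - psi r)) =
        (1 - m ^ 2) * Sr r + sr r * ((1 - m ^ 2) * hh r - A) := by
      unfold hh
      field_simp
      ring
    rw [e1] at ht2
    have hAe : A = hh m - psi r := by linarith
    have hpsim : m ^ 2 / 2 ≤ psi m := by
      have := sq_le_psi (abs_nonneg m) hm1
      rw [sq_abs] at this
      have e : psi |m| = psi m := by
        rcases abs_choice m with h | h <;> rw [h]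
        exact psi_neg m
      linarith
    have h2 := two_Sr_le hb.le hr1
    have h3 := sr_nonneg hr0 hr1
    have h4 : sr r * (m ^ 2 / 2) ≤ sr r * psi m := mul_le_mul_of_nonneg_left hpsim h3
    have h5 : m ^ 2 * (2 * Sr r) ≤ m ^ 2 * (sr r * (1 - 2 * hh r)) :=
      mul_le_mul_of_nonneg_left h2 (sq_nonneg m)
    have h6 : (1 - m ^ 2) * hh r - A = psi m - m ^ 2 * hh r := by
      rw [hAe]; unfold hh; ring
    rw [h6] at ht2
    have h7 : Sr r ≤ (1 - m ^ 2) * Sr r + sr r * (psi m - m ^ 2 * hh r) := by nlinarith
    have h8 : r * th r = 2 * psi r + Sr r := by unfold Sr; ring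
    linarith

/-- Let g be a real function on the n-dimensional Boolean cube with values strictly between -1 and 1, m its mean, I its information, D its entropy production and J = log 2 - (mean sign entropy of its values)/(1 - m²). Write ψ(r) = log 2 - (entropy of a sign of mean r) and F(ψ(r)) = r·artanh r for 0 ≤ r < 1 (ψ maps [0,1) bijectively onto [0, log 2)). Then D ≥ F(I), and D ≥ 2I + (1 - m²)·S(J) with S(J) = F(J) - 2J for J ≥ 0 and S(J) = 0 for J < 0; F is written via r with ψ(r) equal to its argument. -/
theorem result (n : ℕ) (g : (Fin n → Bool) → ℝ)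
    (hg : ∀ x, |g x| < 1) :
    (∀ r : ℝ, 0 ≤ r → r < 1 → Real.log 2 - signEntropy r = information g →
        r * Real.artanh r ≤ production g) ∧
    (surplusArg g < 0 → 2 * information g ≤ production g) ∧
    (∀ s : ℝ, 0 ≤ s → s < 1 → Real.log 2 - signEntropy s = surplusArg g →
        2 * information g + (1 - cubeAverage g ^ 2) * (s * Real.artanh s - 2 * surplusArg g)
          ≤ production g) := by
  have h2 : 2 * information g ≤ production g := by
    have := H28.main1 n g hg
    have h3 := H28.SS_nonneg H28.bt_pos H28.bt_lt_one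
      (H28.hh (cubeAverage g) - cubeAverage (fun x => H28.hh (g x)))
    rw [information_eq g hg]
    linarith
  refine ⟨part1 n g hg, fun _ => h2, ?_⟩
  intro s hs0 hs1 h
  have h4 : H28.psi s = surplusArg g := by
    rw [← h, H28.signEntropy_eq (by linarith) hs1.le]; unfold H28.hh; ring
  rcases eq_or_lt_of_le hs0 with h5 | h5
  · subst h5
    rw [H28.psi_zero] at h4
    rw [← h4]
    simp
    exact h2
  · have key := H28.main2 h5 hs1 n g hg
    unfold H28.tau at key
    have e : Real.log 2 - cubeAverage (fun x => H28.hh (g x)) / (1 - cubeAverage g ^ 2) =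
        surplusArg g := by
      unfold surplusArg
      rw [avg_signEntropy g hg]
    rw [e, ← h4, H28.SS_psi h5 hs1 hs0 le_rfl, ← information_eq g hg] at key
    rw [H28.th_eq_artanh (by linarith) hs1, ← h4]
    unfold H28.Sr at key
    exact key

end Crest.Agent.S0472
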