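import Crest.Prelude.Def_CubeNoise
import Crest.Agent.H28.Noise
import Crest.Agent.S0472

set_option autoImplicit false
open Crest.CubeNoise
open Crest Crest.LogicCS

namespace Crest.Agent.S0470

section
open Crest.Agent.H28 Set

variable {n : ℕ} {u : (Fin n → Bool) → ℝ}

lemma If_nonneg {ρ : ℝ} (hg : ∀ x, |noise ρ u x| < 1) : 0 ≤ If u ρ := by
  have := hh_jensen hg
  rw [cubeAverage_noise] at this
  unfold If
  linarith

lemma psi_abs (x : ℝ) : psi |x| = psi x := by
  rcases abs_choice x with h | h <;> rw [h]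
  exact psi_neg x

lemma If_lt {ρ : ℝ} (hg : ∀ x, |noise ρ u x| < 1) : If u ρ < Real.log 2 := by
  have h1 : 0 < cubeAverage (fun x => hh (noise ρ u x)) := cubeAverage_pos fun x => hh_pos' (hg x)
  have h2 := cubeAverage_abs_lt hg
  rw [cubeAverage_noise] at h2
  have h3 := psi_nonneg (abs_nonneg _) h2
  rw [psi_abs] at h3
  unfold If hh at *
  linarith

lemma deriv_nonneg {ρ : ℝ} (hρ : 0 < ρ) (hg : ∀ x, |noise ρ u x| < 1) :
    0 ≤ production (noise ρ u) / ρ := by
  have h1 := main1 n (noise ρ u) hg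
  have h2 := hh_jensen hg
  have h3 := SS_nonneg bt_pos bt_lt_one
    (hh (cubeAverage (noise ρ u)) - cubeAverage (fun x => hh (noise ρ u x)))
  apply div_nonneg _ hρ.le
  linarith

lemma hasDerivAt_Rinv {b : ℝ} (hb0 : 0 < b) (hb1 : b < 1) {j : ℝ} (h0 : 0 < j) (h1 : j < psi b) :
    HasDerivAt (Rinv b) (th (Rinv b j))⁻¹ j := by
  have hm := Rinv_mem hb0 j
  have hp : psi (Rinv b j) = j := by
    rw [psi_Rinv hb0, min_eq_left h1.le, max_eq_right h0.le]
  have hr : 0 < Rinv b j := by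
    rcases eq_or_lt_of_le hm.1 with h | h
    · rw [← h, psi_zero] at hp; linarith
    · exact h
  have hr1 : Rinv b j < 1 := lt_of_le_of_lt hm.2 hb1
  apply HasDerivAt.of_local_left_inverse (continuous_Rinv hb0 hb1).continuousAt
    (hasDerivAt_psi (by linarith) hr1) (th_pos hr hr1).ne'
  filter_upwards [Ioo_mem_nhds h0 h1] with y hy
  rw [psi_Rinv hb0, min_eq_left hy.2.le, max_eq_right hy.1.le]

lemma step {r ρ0 ρ1 : ℝ} (hr : 0 ≤ r) (hr1 : r ≤ 1) (h0 : 0 < ρ0) (h01 : ρ0 < ρ1) (h1 : ρ1 < 1)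
    (hg : ∀ ρ, 0 < ρ → ρ < 1 → ∀ x, |noise ρ u x| < 1)
    (hI : If u ρ1 ≤ psi r) : If u ρ0 ≤ psi (ρ0 * r / ρ1) := by
  have hρ1 : 0 < ρ1 := h0.trans h01
  have hlt : ρ0 * r / ρ1 < 1 := by
    rw [div_lt_one hρ1]
    calc ρ0 * r ≤ ρ0 * 1 := mul_le_mul_of_nonneg_left hr1 h0.le
      _ < ρ1 := by linarith
  have hnn : 0 ≤ ρ0 * r / ρ1 := by positivity
  rcases le_or_gt (If u ρ0) 0 with hz | hpos
  · exact hz.trans (psi_nonneg hnn hlt)
  -- choose `b`
  have hI1 := If_lt (hg ρ1 hρ1 h1)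
  have hmono : MonotoneOn (If u) (Icc ρ0 ρ1) := by
    apply monotoneOn_of_deriv_nonneg (convex_Icc _ _) (continuous_If u).continuousOn
    · intro ρ hρ
      rw [interior_Icc] at hρ
      exact (hasDerivAt_If (h0.trans hρ.1).ne'
        (hg ρ (h0.trans hρ.1) (hρ.2.trans h1))).differentiableAt.differentiableWithinAt
    · intro ρ hρ
      rw [interior_Icc] at hρ
      rw [(hasDerivAt_If (h0.trans hρ.1).ne' (hg ρ (h0.trans hρ.1) (hρ.2.trans h1))).deriv]
      exact deriv_nonneg (h0.trans hρ.1) (hg ρ (h0.trans hρ.1) (hρ.2.trans h1))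
  obtain ⟨b, hb, hbpsi⟩ : ∃ b ∈ Icc (0:ℝ) 1, psi b = (If u ρ1 + Real.log 2) / 2 := by
    have := intermediate_value_Icc (zero_le_one) (continuous_psi.continuousOn (s := Icc 0 1))
    apply this
    rw [psi_zero, psi_one]
    have := If_nonneg (hg ρ1 hρ1 h1)
    have := L_gt
    constructor <;> linarith
  have hIb : If u ρ1 < psi b := by rw [hbpsi]; linarith
  have hb1 : b < 1 := by
    rcases eq_or_lt_of_le hb.2 with h | h
    · rw [h, psi_one] at hbpsi; linarith
    · exact h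
  have hb0 : 0 < b := by
    rcases eq_or_lt_of_le hb.1 with h | h
    · rw [← h, psi_zero] at hIb
      have := If_nonneg (hg ρ1 hρ1 h1)
      linarith
    · exact h
  have hrange : ∀ ρ ∈ Icc ρ0 ρ1, 0 < If u ρ ∧ If u ρ < psi b := by
    intro ρ hρ
    have a1 := hmono ⟨le_rfl, h01.le⟩ hρ hρ.1
    have a2 := hmono hρ ⟨h01.le, le_rfl⟩ hρ.2
    exact ⟨hpos.trans_le a1, lt_of_le_of_lt a2 hIb⟩
  have hR : MonotoneOn (fun ρ => Rinv b (If u ρ) / ρ) (Icc ρ0 ρ1) := by
    have hd : ∀ ρ ∈ Icc ρ0 ρ1, HasDerivAt (fun ρ => Rinv b (If u ρ) / ρ)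
        (((th (Rinv b (If u ρ)))⁻¹ * (production (noise ρ u) / ρ) * ρ - Rinv b (If u ρ) * 1) /
          ρ ^ 2) ρ := by
      intro ρ hρ
      have hρ0 := h0.trans_le hρ.1
      have hρl := lt_of_le_of_lt hρ.2 h1
      exact ((hasDerivAt_Rinv hb0 hb1 (hrange ρ hρ).1 (hrange ρ hρ).2).comp ρ
        (hasDerivAt_If hρ0.ne' (hg ρ hρ0 hρl))).fun_div (hasDerivAt_id ρ) hρ0.ne'
    apply monotoneOn_of_deriv_nonneg (convex_Icc _ _)
    · exact fun ρ hρ => (hd ρ hρ).continuousAt.continuousWithinAt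
    · intro ρ hρ
      rw [interior_Icc] at hρ
      exact (hd ρ ⟨hρ.1.le, hρ.2.le⟩).differentiableAt.differentiableWithinAt
    · intro ρ hρ
      rw [interior_Icc] at hρ
      have hρ' : ρ ∈ Icc ρ0 ρ1 := ⟨hρ.1.le, hρ.2.le⟩
      have hρ0 := h0.trans hρ.1
      have hρl := hρ.2.trans h1
      rw [(hd ρ hρ').deriv]
      apply div_nonneg _ (by positivity)
      set s := Rinv b (If u ρ) with hs
      have hm := Rinv_mem hb0 (If u ρ)
      rw [← hs] at hm
      have hsl : s < 1 := lt_of_le_of_lt hm.2 hb1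
      have hp : psi s = If u ρ := by
        rw [hs, psi_Rinv hb0, min_eq_left (hrange ρ hρ').2.le, max_eq_right (hrange ρ hρ').1.le]
      have hspos : 0 < s := by
        rcases eq_or_lt_of_le hm.1 with h | h
        · rw [← h, psi_zero] at hp; linarith [(hrange ρ hρ').1]
        · exact h
      have hth := th_pos hspos hsl
      have key := S0472.part1 n (noise ρ u) (hg ρ hρ0 hρl) s hspos.le hsl (by
        rw [signEntropy_eq (by linarith) hsl.le, S0472.information_eq _ (hg ρ hρ0 hρl),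
          cubeAverage_noise]
        have e : Real.log 2 - hh s = psi s := by unfold hh; ring
        rw [e, hp]; rfl)
      rw [th_eq_artanh (by linarith) hsl] at key
      have e2 : (th s)⁻¹ * (production (noise ρ u) / ρ) * ρ - s * 1 =
          (production (noise ρ u) - s * th s) / th s := by
        field_simp
      rw [e2]
      exact div_nonneg (by linarith) hth.le
  have hfin := hR ⟨le_rfl, h01.le⟩ ⟨h01.le, le_rfl⟩ h01.le
  simp only at hfin
  set s0 := Rinv b (If u ρ0) with hs0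
  set s1 := Rinv b (If u ρ1) with hs1
  have hm0 := Rinv_mem hb0 (If u ρ0)
  have hm1 := Rinv_mem hb0 (If u ρ1)
  rw [← hs0] at hm0
  rw [← hs1] at hm1
  have hp0 : psi s0 = If u ρ0 := by
    rw [hs0, psi_Rinv hb0, min_eq_left (hrange ρ0 ⟨le_rfl, h01.le⟩).2.le,
      max_eq_right hpos.le]
  have hp1 : psi s1 = If u ρ1 := by
    rw [hs1, psi_Rinv hb0, min_eq_left hIb.le,
      max_eq_right (hrange ρ1 ⟨h01.le, le_rfl⟩).1.le]
  have hs1r : s1 ≤ r := by
    have : psi s1 ≤ psi r := by rw [hp1]; exact hI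
    exact (psi_strictMonoOn_Icc.le_iff_le ⟨hm1.1, hm1.2.trans hb1.le⟩ ⟨hr, hr1⟩).1 this
  rw [← hp0]
  apply psi_mono hm0.1 hlt
  rw [div_le_div_iff₀ h0 hρ1] at hfin
  rw [le_div_iff₀ hρ1]
  calc s0 * ρ1 ≤ s1 * ρ0 := hfin
    _ ≤ r * ρ0 := mul_le_mul_of_nonneg_right hs1r h0.le
    _ = ρ0 * r := by ring

lemma info_le {r ρ0 : ℝ} (hr : 0 ≤ r) (hr1 : r ≤ 1) (h0 : 0 < ρ0) (h1 : ρ0 < 1)
    (hg : ∀ ρ, 0 < ρ → ρ < 1 → ∀ x, |noise ρ u x| < 1)
    (hI : If u 1 = psi r) : If u ρ0 ≤ psi (ρ0 * r) := by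
  have hmono : MonotoneOn (If u) (Icc ρ0 1) := by
    apply monotoneOn_of_deriv_nonneg (convex_Icc _ _) (continuous_If u).continuousOn
    · intro ρ hρ
      rw [interior_Icc] at hρ
      exact (hasDerivAt_If (h0.trans hρ.1).ne'
        (hg ρ (h0.trans hρ.1) hρ.2)).differentiableAt.differentiableWithinAt
    · intro ρ hρ
      rw [interior_Icc] at hρ
      rw [(hasDerivAt_If (h0.trans hρ.1).ne' (hg ρ (h0.trans hρ.1) hρ.2)).deriv]
      exact deriv_nonneg (h0.trans hρ.1) (hg ρ (h0.trans hρ.1) hρ.2)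
  have hall : ∀ ρ1 ∈ Ioo ρ0 1, If u ρ0 ≤ psi (ρ0 * r / ρ1) := by
    intro ρ1 hρ1
    apply step hr hr1 h0 hρ1.1 hρ1.2 hg
    rw [← hI]
    exact hmono ⟨hρ1.1.le, hρ1.2.le⟩ ⟨h1.le, le_rfl⟩ hρ1.2.le
  have hcont : ContinuousAt (fun ρ1 => psi (ρ0 * r / ρ1)) 1 :=
    continuous_psi.continuousAt.comp (continuousAt_const.div continuousAt_id one_ne_zero)
  have hlim : Filter.Tendsto (fun ρ1 => psi (ρ0 * r / ρ1)) (nhdsWithin 1 (Iio 1))
      (nhds (psi (ρ0 * r / 1))) := hcont.tendsto.mono_left nhdsWithin_le_nhds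
  rw [div_one] at hlim
  apply ge_of_tendsto hlim
  filter_upwards [Ioo_mem_nhdsLT h1] with ρ1 hρ1
  exact hall ρ1 hρ1

/-- the case `0 ≤ ρ ≤ 1` -/
lemma main_nonneg (hu : ∀ x, |u x| ≤ 1) {ρ : ℝ} (hρ0 : 0 ≤ ρ) (hρ1 : ρ ≤ 1) {r : ℝ} (hr : 0 ≤ r)
    (hr1 : r ≤ 1) (hI : If u 1 = psi r) : If u ρ ≤ psi (ρ * r) := by
  have hrr : 0 ≤ ρ * r ∧ ρ * r ≤ 1 := ⟨by positivity, mul_le_one₀ hρ1 hr hr1⟩
  have hpn : 0 ≤ psi (ρ * r) := by
    rcases eq_or_lt_of_le hrr.2 with h | h
    · rw [h, psi_one]; linarith [L_gt]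
    · exact psi_nonneg hrr.1 h
  rcases eq_or_lt_of_le hρ0 with h | h
  · -- ρ = 0
    subst h
    have : If u 0 = 0 := by
      unfold If
      have e : (fun x => hh (noise 0 u x)) = fun _ => hh (cubeAverage u) := by
        funext x; rw [noise_zero]
      rw [e, cubeAverage_const]; ring
    rw [this]; exact hpn
  rcases eq_or_lt_of_le hρ1 with h' | h'
  · rw [h', hI, one_mul]
  by_cases c1 : ∃ x, u x ≠ 1
  · by_cases c2 : ∃ x, u x ≠ -1
    · apply info_le hr hr1 h h' _ hI
      intro ρ' h3 h4 x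
      exact abs_noise_lt (by rw [abs_of_pos h3]; exact h4) hu c1 c2 x
    · push Not at c2
      have hc : ∀ x, noise ρ u x = -1 := by
        intro x
        rw [noise_eq]
        simp only [c2]
        rw [← Finset.sum_mul, ker_sum]; ring
      have : If u ρ = 0 := by
        unfold If
        rw [← cubeAverage_noise ρ u]
        simp only [hc, funext hc]
        rw [cubeAverage_const, cubeAverage_const]; ring
      rw [this]; exact hpn
  · push Not at c1
    have hc : ∀ x, noise ρ u x = 1 := by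
      intro x
      rw [noise_eq]
      simp only [c1]
      rw [← Finset.sum_mul, ker_sum]; ring
    have : If u ρ = 0 := by
      unfold If
      rw [← cubeAverage_noise ρ u]
      simp only [hc, funext hc]
      rw [cubeAverage_const, cubeAverage_const]; ring
    rw [this]; exact hpn

end

/-- Let u be a real function on the n-dimensional Boolean cube with all values in [-1, 1], read as the conditional mean of a random sign given a uniform cube point; let ρ have absolute value at most 1 and 0 ≤ r ≤ 1. If the mutual information (natural units) between sign and point equals log 2 minus the entropy of a sign of mean r, then the information of the noisy version of u with correlation ρ is at most log 2 minus the entropy of a sign of mean (absolute value of ρ)·r. -/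
theorem result (n : ℕ) (u : (Fin n → Bool) → ℝ)
    (hu : ∀ x, |u x| ≤ 1) (ρ : ℝ) (hρ : |ρ| ≤ 1) (r : ℝ) (hr : 0 ≤ r) (hr1 : r ≤ 1)
    (hI : information u = Real.log 2 - signEntropy r) :
    information (noise ρ u) ≤ Real.log 2 - signEntropy (|ρ| * r) := by
  have hI' : H28.If u 1 = H28.psi r := by
    rw [← H28.information_noise_eq hu (by simp), H28.noise_one, hI,
      H28.signEntropy_eq (by linarith) hr1]
    unfold H28.hh; ring
  have h1 : |ρ| * r ≤ 1 := mul_le_one₀ hρ hr hr1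
  have h0 : 0 ≤ |ρ| * r := by positivity
  have e : information (noise ρ u) = information (noise |ρ| u) := by
    rcases abs_choice ρ with h | h
    · rw [h]
    · rw [h, H28.information_noise_neg]
  rw [e, H28.information_noise_eq hu (by rw [abs_abs]; exact hρ),
    H28.signEntropy_eq (by linarith) h1]
  have := main_nonneg hu (abs_nonneg ρ) hρ hr hr1 hI'
  unfold H28.hh
  linarith

end Crest.Agent.S0470
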