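import Crest.Statements.S0499
import Crest.Agent.R322.Asm
import Crest.Agent.R322.CNT
import Crest.Agent.R322.PM
import Crest.Agent.R322.CAP
import Crest.Agent.R322.CELL
import Crest.Agent.R322.KAP
import Crest.Agent.R322.VAL
import Crest.Agent.R322.POTNN
import Crest.Agent.R322.IRR
import Crest.Agent.R322.FIN
import Crest.Agent.R322.STAGE
import Crest.Agent.R322.WIN
import Crest.Agent.R322.SLAB
import Crest.Agent.R322.G1
import Crest.Agent.R322.GB
import Crest.Agent.R322.H0
import Crest.Agent.R322.AFF
import Crest.Agent.R322.MOM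
import Crest.Agent.R322.REP
import Crest.Agent.R322.APP
import Crest.Agent.R322.MIAPP
import Crest.Agent.R322.WL0
import Crest.Agent.R322.STEP
import Crest.Agent.R322.CORE
import Crest.Agent.R322.LEARN
import Crest.Agent.R322.REFL
import Crest.Agent.R322.MAIN

set_option autoImplicit false
open Crest Crest.LogicCS

namespace Crest.Agent.S0499

/-- For each A > 0 there are c > 0 and d₀ such that for all d ≥ d₀, naturals M ≤ A·d² and T, and 0 < ε ≤ 1/10: if a randomized one-pass learner with at most 2^M states (own seed independent of the data; transitions read one pair (x_t, ⟪x_t, s⟫) at a time; optional early stopping; unit-vector output from stopping index, seed and final state), fed T independent standard Gaussian samples in ℝ^d with s uniform on the sphere, is within angle ε of s with probability ≥ 2/3, then T ≥ c·d·log(1/ε). -/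
theorem result :
    ∀ A : ℝ, 0 < A → ∃ c : ℝ, 0 < c ∧ ∃ d₀ : ℕ, ∀ d ≥ d₀, ∀ (M T : ℕ),
      (M : ℝ) ≤ A * (d : ℝ) ^ 2 → ∀ ε : ℝ, 0 < ε → ε ≤ 1 / 10 →
        ∀ L : Crest.StreamLearn.RLearner d T M,
          2 / 3 ≤ L.successProb ε → c * d * Real.log (1 / ε) ≤ T :=
  Crest.Agent.R322.asm Crest.Agent.R322.cnt Crest.Agent.R322.pm Crest.Agent.R322.cap
    Crest.Agent.R322.cell_facts Crest.Agent.R322.kap_facts Crest.Agent.R322.val_facts
    Crest.Agent.R322.potnn Crest.Agent.R322.irr_small Crest.Agent.R322.fin_bound
    Crest.Agent.R322.stage Crest.Agent.R322.win Crest.Agent.R322.slab Crest.Agent.R322.g1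
    Crest.Agent.R322.gb Crest.Agent.R322.h0 Crest.Agent.R322.aff Crest.Agent.R322.mom
    Crest.Agent.R322.rep Crest.Agent.R322.app Crest.Agent.R322.miapp Crest.Agent.R322.wl0
    Crest.Agent.R322.step Crest.Agent.R322.core Crest.Agent.R322.learn Crest.Agent.R322.refl
    Crest.Agent.R322.main

end Crest.Agent.S0499
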