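import Crest.Statements.S0501
import Crest.Agent.R324.CDefs
import Crest.Agent.R324.LIB
import Crest.Agent.R324.CIRC
import Crest.Agent.R324.CONT
import Crest.Agent.R324.TENS
import Crest.Agent.R324.TMUL
import Crest.Agent.R324.TSTEPS
import Crest.Agent.R324.QB
import Crest.Agent.R324.SLIB
import Crest.Agent.R324.FFT
import Crest.Agent.R324.TOEP
import Crest.Agent.R324.ADM
import Crest.Agent.R324.LTR
import Crest.Agent.R324.INP
import Crest.Agent.R324.GT
import Crest.Agent.R324.PICK
import Crest.Agent.R324.OUT
import Crest.Agent.R324.FIN
import Crest.Agent.R324.BLK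
import Crest.Agent.R324.DBL
import Crest.Agent.R324.TRV
import Crest.Agent.R324.INC
import Crest.Agent.R324.SYS
import Crest.Agent.R324.NUM
import Crest.Agent.R324.ASMC
import Crest.Agent.R324.GAD
import Crest.Agent.R324.LOCK
import Crest.Agent.R324.PRE

set_option autoImplicit false
open Crest Crest.LogicCS

namespace Crest.Agent.S0501

/-- For some constant C and threshold N₀ and every n ≥ N₀, some exact complex linear circuit (each gate adds or subtracts two available values or multiplies one by an arbitrary fixed complex scalar; the inputs and the constant 0 are available at the start; every gate counts one) computes the unnormalized discrete Fourier transform of order n on every complex input vector with at most C · n · (log n)^θ · (log log n)^(4 − θ) gates, where θ = log_m (m − Δ/2^71), m = 10^6, Δ = 6871402692000000. -/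
theorem result :
    ∃ C : ℝ, ∃ N₀ : ℕ, ∀ n ≥ N₀, ∃ P : Crest.FourierCircuit.LinCircuit n,
      P.Computes (Crest.FourierCircuit.dftMatrix n) ∧
        (P.size : ℝ) ≤ C * n * Real.log n ^ Crest.FourierCircuit.savingExponent *
          Real.log (Real.log n) ^ (4 - Crest.FourierCircuit.savingExponent) := by
  open Crest.Agent.R324 in
  obtain ⟨K, hK, hz⟩ := zb lib (tens_ lib) tensMul blk_ dbl trv (inc lib) sys cont num
    (sched gad lock pre)
  open Crest.Agent.R324 in
  exact fin lib circ tensSteps (tens_ lib) tensMul gt pick out qb
    (inp slib qb (lt slib fft toep adMul)) Crest.FourierCircuit.savingExponent K cont.1 cont.2 hK hz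

end Crest.Agent.S0501
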