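-- Row 350, S0554. Assembly of the project R350.
import Crest.Statements.S0554
import Crest.Agent.R350.A1
import Crest.Agent.R350.A2
import Crest.Agent.R350.A3
import Crest.Agent.R350.A4
import Crest.Agent.R350.A5
import Crest.Agent.R350.A6
import Crest.Agent.R350.A7
import Crest.Agent.R350.A8
import Crest.Agent.R350.A9
import Crest.Agent.R350.A10
import Crest.Agent.R350.A11
import Crest.Agent.R350.B1
import Crest.Agent.R350.B2
import Crest.Agent.R350.B3
import Crest.Agent.R350.B4
import Crest.Agent.R350.C1
import Crest.Agent.R350.C2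
import Crest.Agent.R350.C3
import Crest.Agent.R350.C4
import Crest.Agent.R350.C5
import Crest.Agent.R350.C6
import Crest.Agent.R350.D1
import Crest.Agent.R350.D3
import Crest.Agent.R350.D4
import Crest.Agent.R350.D5
import Crest.Agent.R350.D6

set_option autoImplicit false
open Crest.MathPhysics.Query
open Crest Crest.MathPhysics

namespace Crest.Agent.S0554

open Crest.Agent.R350 in
theorem result (k : ℕ) (hk : 2 ≤ k) :
    ∃ (c C b : ℝ), 0 < c ∧ 0 < C ∧ 0 < b ∧ ∃ m₀ : ℕ, ∀ m : ℕ, m₀ ≤ m → (∃ j : ℕ, m = 4 ^ j) →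
      ∃ (n : ℕ) (F : (Fin n → Bool) → Bool),
        (∃ q : ℕ, (q : ℝ) ≤ C * Real.sqrt m * Real.log m ^ b ∧ QuantumComputes F q) ∧
        (∀ r : ℕ, RandomizedComputes F r →
          c * (m : ℝ) ^ (2 - 1 / (k : ℝ)) / Real.log m ^ 2 ≤ r) := by
  have hB := realBasic
  have hBi := realBind
  have hMo := realMono hB hBi
  have hRe := realReindex
  have hTr := realTree hB hBi hMo
  have hAA := realAA hB hBi hMo
  have hSe := realSearch hB hBi hMo hTr hAA
  have hF := realForr phiP
  have hSt := stageAlg hB hBi hMo hTr hSe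
  have hCa := candGen' hB hBi hMo hRe hF
  have hX := xAlg hB hBi hMo hRe hSt hCa
  have hQ := csq hB hBi hMo hRe hTr hSe
  have hFo := forrHard l1k gaussPair chainP (derivBound chainP) phiP
  have hLo := xLower hFo adv0 adv1 (goodProb phiP)
  exact top (main hQ csr hX hLo (certExists phiP)) transport k hk

end Crest.Agent.S0554
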